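import Vale.Agent.P313.AC.FDef
import Vale.Agent.P313.AC.H146.Tree

/-!
Module F3: levels above `0`.
-/

namespace Vale.Agent.P313.AC.H602

open Finset

variable {D : Dat} {x : List Bool}

theorem apxx_le (D : Dat) (x : List Bool) (m : ℕ) (v : ℕ → ℕ) :
    apxx D x m v ≤ (D.p x.length).U := H146.est_le _ _ _ _ _ _ _

theorem pva_le (D : Dat) (x : List Bool) (l t : ℕ) (A : ℕ → ℕ → ℕ → ℕ) (sg u y i j : ℕ) :
    pva (D.p x.length).b (apxx D x) l t A sg u y i j ≤ (D.p x.length).U := by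
  unfold pva
  split_ifs
  · exact apxx_le D x _ _
  · exact Nat.zero_le _

theorem vS_root (hD : D.Ok) (l t sg u y : ℕ) :
    vS D x l t sg u y (2 * D.j0) 0 = ∑ i ∈ range (gJ D x.length), ∑ j ∈ range (gJ D x.length),
      pva (D.p x.length).b (apxx D x) l t (vA D x l) sg u y i j := by
  have hf : 0 < (D.p x.length).f := by have := (hD.good x.length).f2; omega
  rw [H146.pairs_eq_tsm (D.p x.length).f (gJ D x.length) D.j0 _ rfl hf, H146.tsm_root]
  unfold vS
  rw [Nat.zero_mul, Nat.zero_add, Nat.one_mul, Nat.Ico_zero_eq_range]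

theorem vS_lt (hD : D.Ok) (l t sg u y : ℕ) :
    vS D x l t sg u y (2 * D.j0) 0 < (x.length + 2) ^ D.e := by
  have h1 := (hD.good x.length).hV
  have h2 := hD.goodF.hV x.length
  have h3 : vS D x l t sg u y (2 * D.j0) 0 ≤
      (D.p x.length).f ^ (2 * D.j0) * (D.p x.length).U := by
    unfold vS
    rw [Nat.zero_mul, Nat.zero_add, Nat.one_mul, Nat.Ico_zero_eq_range]
    calc _ ≤ ∑ _w ∈ range ((D.p x.length).f ^ (2 * D.j0)), (D.p x.length).U :=
          sum_le_sum fun w _ => pva_le D x _ _ _ _ _ _ _ _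
      _ = _ := by rw [sum_const, card_range, smul_eq_mul]
  omega

/-- MODULE F3. -/
theorem modF3 : ModF3 := by
  intro D x hD hB T X hI l t u y v hl ht0 ht hu hy hv hr
  have hJ : gJ D x.length * gJ D x.length = (D.p x.length).f ^ (2 * D.j0) := by
    unfold gJ
    rw [← pow_add]
    congr 1
    omega
  have hrS : rS D l t (2 * D.j0) ≤ T := by
    unfold rA at hr
    unfold rS
    have : (15 * D.κ + 4 + 2 * D.j0) * (l + 1) =
      (15 * D.κ + 4 + 2 * D.j0) * l + (15 * D.κ + 4 + 2 * D.j0) := by ring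
    omega
  have key : ∀ sg < 2, ∀ q < (x.length + 2) ^ D.e,
      (X (aS l t sg u y (2 * D.j0) 0 q) ↔ q = vS D x l t sg u y (2 * D.j0) 0) := by
    intro sg hsg q hq
    refine hI.cS l t sg u y (2 * D.j0) 0 q hl ht hsg hu hy ?_ hq hrS
    rw [hJ]
    omega
  have hv1 : vA D x (l + 1) t u y = (vS D x l t 0 u y (2 * D.j0) 0 -
      vS D x l t 1 u y (2 * D.j0) 0) / (D.p x.length).Q := by
    rw [vS_root hD, vS_root hD]
    rfl
  have h0 : aA (l + 1) t u y v 0 = 0 := rfl
  have h1 : aA (l + 1) t u y v 1 = l + 1 := rfl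
  have hop : opF D x X (aA (l + 1) t u y v) ↔ opA1 D x X (aA (l + 1) t u y v) := by
    unfold opF
    rw [h0, h1]
    constructor
    · rintro (H | H | H | H | H | H | H | H)
      · exact absurd H.2.1 (by omega)
      · exact H.2.2
      · exact absurd H.1 (by norm_num)
      · exact absurd H.1 (by norm_num)
      · exact absurd H.1 (by norm_num)
      · exact absurd H.1 (by norm_num)
      · exact absurd H.1 (by norm_num)
      · exact absurd H.1 (by norm_num)
    · intro H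
      exact Or.inr (Or.inl ⟨rfl, by omega, H⟩)
  rw [hop, hv1]
  show (∃ q1 < (x.length + 2) ^ D.e, ∃ q2 < (x.length + 2) ^ D.e,
    X (aS (l + 1 - 1) t 0 u y (2 * D.j0) 0 q1) ∧ X (aS (l + 1 - 1) t 1 u y (2 * D.j0) 0 q2) ∧
      v = (q1 - q2) / (D.p x.length).Q) ↔ _
  rw [Nat.add_sub_cancel]
  constructor
  · rintro ⟨q1, hq1, q2, hq2, hX1, hX2, hvq⟩
    rw [hvq, (key 0 (by norm_num) q1 hq1).1 hX1, (key 1 (by norm_num) q2 hq2).1 hX2]
  · intro hvq
    exact ⟨_, vS_lt hD l t 0 u y, _, vS_lt hD l t 1 u y,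
      (key 0 (by norm_num) _ (vS_lt hD l t 0 u y)).2 rfl,
      (key 1 (by norm_num) _ (vS_lt hD l t 1 u y)).2 rfl, hvq⟩

end Vale.Agent.P313.AC.H602
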