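import Vale.Agent.P313.AC.FOT
import Vale.Agent.P313.AC.H72.Nest

/-!
Module A2: the normal form of first-order operators.
-/

namespace Vale.Agent.P313.AC.H602

open Finset

/-- Alternating negated quantifiers over a predicate of the code. -/
def nst (M : ℕ) (φ : ℕ → Prop) : ℕ → ℕ → Prop
  | 0 => φ
  | j + 1 => fun s => ∀ b < M, ¬ nst M φ j (s * M + b)

theorem nst_congr {M : ℕ} {φ ψ : ℕ → Prop} : ∀ (j s s' : ℕ),
    (∀ r < M ^ j, φ (s * M ^ j + r) ↔ ψ (s' * M ^ j + r)) → (nst M φ j s ↔ nst M ψ j s') := by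
  intro j
  induction j with
  | zero =>
    intro s s' h
    simpa [nst] using h 0 (by simp)
  | succ j ih =>
    intro s s' h
    simp only [nst]
    refine forall_congr' fun b => forall_congr' fun hb => not_congr (ih _ _ fun r hr => ?_)
    have h1 : b * M ^ j + r < M ^ (j + 1) := by
      have h2 : (b + 1) * M ^ j ≤ M * M ^ j := Nat.mul_le_mul_right _ hb
      have h3 : M ^ (j + 1) = M * M ^ j := by ring
      rw [h3]
      nlinarith
    have h2 := h _ h1
    have e1 : (s * M + b) * M ^ j + r = s * M ^ (j + 1) + (b * M ^ j + r) := by ring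
    have e2 : (s' * M + b) * M ^ j + r = s' * M ^ (j + 1) + (b * M ^ j + r) := by ring
    rw [e1, e2]
    exact h2

theorem nst_const {M : ℕ} (hM : 0 < M) {φ : ℕ → Prop} {p : Prop} : ∀ (j s : ℕ),
    (∀ s, φ s ↔ (if j % 2 = 0 then p else ¬ p)) → (nst M φ j s ↔ p) := by
  have h0 : ∀ (j : ℕ) (q : Prop), (∀ s, φ s ↔ q) →
      ∀ s, nst M φ j s ↔ (if j % 2 = 0 then q else ¬ q) := by
    intro j q hq
    induction j with
    | zero => intro s; simpa [nst] using hq s
    | succ j ih =>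
      intro s
      simp only [nst]
      constructor
      · intro h
        have h1 := h 0 hM
        rw [ih] at h1
        rcases Nat.mod_two_eq_zero_or_one j with h2 | h2
        · rw [if_pos h2] at h1; rw [if_neg (by omega)]; exact h1
        · rw [if_neg (by omega)] at h1; rw [if_pos (by omega)]; exact not_not.1 h1
      · intro h b hb
        rw [ih]
        rcases Nat.mod_two_eq_zero_or_one j with h2 | h2
        · rw [if_pos h2]; rw [if_neg (by omega)] at h; exact h
        · rw [if_neg (by omega)]; rw [if_pos (by omega)] at h; exact not_not.2 h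
  intro j s h
  rw [h0 j _ h s]
  split_ifs
  · rfl
  · exact not_not

variable {m k k' : ℕ}

theorem nest_iff (l : Leaf m k) (x : List Bool) (X : (Fin m → ℕ) → Prop) (M : ℕ) (j s : ℕ)
    (a : Fin k → ℕ) : l.nest x X M j s a ↔
      nst M (fun s => l.val x X (Fin.cons x.length (Fin.cons s a))) j s := by
  induction j generalizing s with
  | zero => exact Iff.rfl
  | succ j ih => simp only [Leaf.nest, nst, ih]

/-- Change of variables in a leaf. -/
def pre (l : Leaf m k) (g : Fin (k + 2) → (Fin (k' + 2) → ℕ) → ℕ) : Leaf m k' where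
  kd v := l.kd (fun i => g i v)
  pp v := l.pp (fun i => g i v)
  tt i v := l.tt i (fun i => g i v)

theorem pre_ok {l : Leaf m k} (h : l.Ok) {g : Fin (k + 2) → (Fin (k' + 2) → ℕ) → ℕ}
    (hg : ∀ i, NF (g i)) : (pre l g).Ok where
  kd := LF.comp (f := fun _ a => l.kd a) h.kd hg
  pp := LF.comp (f := fun _ a => l.pp a) h.pp hg
  tt i := LF.comp (f := fun _ a => l.tt i a) (h.tt i) hg

theorem pre_val (l : Leaf m k) (g : Fin (k + 2) → (Fin (k' + 2) → ℕ) → ℕ) (x : List Bool)
    (X : (Fin m → ℕ) → Prop) (v : Fin (k' + 2) → ℕ) :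
    (pre l g).val x X v = l.val x X (fun i => g i v) := rfl

open Classical in
/-- Definition by cases. -/
noncomputable def cas (P : (Fin (k + 2) → ℕ) → Prop) (l l' : Leaf m k) : Leaf m k where
  kd v := if P v then l.kd v else l'.kd v
  pp v := if P v then l.pp v else l'.pp v
  tt i v := if P v then l.tt i v else l'.tt i v

open Classical in
theorem cas_ok {P : (Fin (k + 2) → ℕ) → Prop} (hP : NP P) {l l' : Leaf m k} (h : l.Ok)
    (h' : l'.Ok) : (cas P l l').Ok where
  kd := LF.ite hP h.kd h'.kd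
  pp := LF.ite hP h.pp h'.pp
  tt i := LF.ite hP (h.tt i) (h'.tt i)

theorem cas_pos {P : (Fin (k + 2) → ℕ) → Prop} (l l' : Leaf m k) (x : List Bool)
    (X : (Fin m → ℕ) → Prop) {v : Fin (k + 2) → ℕ} (h : P v) :
    (cas P l l').val x X v = l.val x X v := by
  simp only [cas, Leaf.val, if_pos h]

theorem cas_neg {P : (Fin (k + 2) → ℕ) → Prop} (l l' : Leaf m k) (x : List Bool)
    (X : (Fin m → ℕ) → Prop) {v : Fin (k + 2) → ℕ} (h : ¬ P v) :
    (cas P l l').val x X v = l'.val x X v := by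
  simp only [cas, Leaf.val, if_neg h]

/-- The variables with the code reduced modulo `M ^ d`. -/
def redn (E d : ℕ) (i : Fin (k + 2)) (v : Fin (k + 2) → ℕ) : ℕ :=
  if i = 1 then v 1 % ((v 0 + 2) ^ E) ^ d else v i

theorem nf_redn (E d : ℕ) (i : Fin (k + 2)) : NF (redn E d i) := by
  by_cases h : i = 1
  · have : redn (k := k) E d i = fun v => v 1 % ((v 0 + 2) ^ E) ^ d := by
      funext v; simp [redn, h]
    rw [this]
    exact LF.mod (LF.proj 1) (LF.powConst (LF.powConst ((LF.proj 0).add (LF.const 2)) E) d)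
  · have : redn (k := k) E d i = fun v => v i := by
      funext v; simp [redn, h]
    rw [this]
    exact LF.proj i

theorem redn_cons (E d n s : ℕ) (a : Fin k → ℕ) :
    (fun i => redn E d i (Fin.cons n (Fin.cons s a) : Fin (k + 2) → ℕ)) =
      (Fin.cons n (Fin.cons (s % ((n + 2) ^ E) ^ d) a) : Fin (k + 2) → ℕ) := by
  funext i
  refine Fin.cases ?_ (fun j => ?_) i
  · simp [redn]
  · refine Fin.cases ?_ (fun j' => ?_) j
    · simp only [redn]
      rfl
    · have h : (j'.succ.succ : Fin (k + 2)) ≠ 1 := by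
        simp [Fin.ext_iff]
      simp only [redn, if_neg h]
      rfl

/-- The variables `n, s, a` replaced by `n, s % M ^ d, s / M ^ (d + 1) % (n + 2) ^ e, a`. -/
def redq (E d e : ℕ) (i : Fin (k + 3)) (v : Fin (k + 2) → ℕ) : ℕ :=
  (Fin.cons (v 0) (Fin.cons (v 1 % ((v 0 + 2) ^ E) ^ d)
    (Fin.cons (v 1 / ((v 0 + 2) ^ E) ^ (d + 1) % (v 0 + 2) ^ e) (Fin.tail (Fin.tail v)))) :
      Fin (k + 3) → ℕ) i

theorem nf_redq (E d e : ℕ) (i : Fin (k + 3)) : NF (redq E d e i) := by
  have hM : NF (fun v : Fin (k + 2) → ℕ => (v 0 + 2) ^ E) :=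
    LF.powConst ((LF.proj 0).add (LF.const 2)) E
  refine Fin.cases ?_ (fun j => ?_) i
  · exact LF.proj 0
  · refine Fin.cases ?_ (fun j' => ?_) j
    · exact LF.mod (LF.proj 1) (LF.powConst hM d)
    · refine Fin.cases ?_ (fun j'' => ?_) j'
      · exact LF.mod (LF.div (LF.proj 1) (LF.powConst hM (d + 1)))
          (LF.powConst ((LF.proj 0).add (LF.const 2)) e)
      · exact LF.proj _

theorem redq_cons (E d e n s : ℕ) (a : Fin k → ℕ) :
    (fun i => redq E d e i (Fin.cons n (Fin.cons s a) : Fin (k + 2) → ℕ)) =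
      (Fin.cons n (Fin.cons (s % ((n + 2) ^ E) ^ d)
        (Fin.cons (s / ((n + 2) ^ E) ^ (d + 1) % (n + 2) ^ e) a)) : Fin (k + 3) → ℕ) := by
  funext i
  rfl

/-- The normal form of one operator. -/
def HasNF (F : Op m k) : Prop := ∃ d0 E0 : ℕ, ∀ d ≥ d0, ∀ E ≥ E0,
  ∃ l : Leaf m k, l.Ok ∧ ∀ (x : List Bool) (X : (Fin m → ℕ) → Prop) (a : Fin k → ℕ),
    F x X a ↔ l.nest x X ((x.length + 2) ^ E) d 0 a

theorem powpos (n E : ℕ) : 0 < (n + 2) ^ E := Nat.pow_pos (by omega)

/-- Leaves which do not depend on the code. -/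
theorem has_of_leaf {F : Op m k} (l0 l1 : Leaf m k) (h0 : l0.Ok) (h1 : l1.Ok)
    (e0 : ∀ x X s a, l0.val x X (Fin.cons x.length (Fin.cons s a)) ↔ F x X a)
    (e1 : ∀ x X s a, l1.val x X (Fin.cons x.length (Fin.cons s a)) ↔ ¬ F x X a) : HasNF F := by
  refine ⟨0, 0, fun d _ E _ => ?_⟩
  rcases Nat.mod_two_eq_zero_or_one d with hd | hd
  · refine ⟨l0, h0, fun x X a => ?_⟩
    rw [nest_iff, nst_const (powpos _ E) (p := F x X a) d 0]
    intro s
    rw [if_pos hd]
    exact e0 x X s a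
  · refine ⟨l1, h1, fun x X a => ?_⟩
    rw [nest_iff, nst_const (powpos _ E) (p := F x X a) d 0]
    intro s
    rw [if_neg (by omega)]
    exact e1 x X s a

theorem sk1_cons (n s : ℕ) (a : Fin k → ℕ) :
    (fun i => (Fin.cons n (Fin.cons s a) : Fin (k + 2) → ℕ) (sk1 i)) =
      (Fin.cons n a : Fin (k + 1) → ℕ) := by
  funext i
  rw [cons_sk1]
  rfl

theorem nf_sk1 {t : (Fin (k + 1) → ℕ) → ℕ} (h : NF t) :
    NF (fun v : Fin (k + 2) → ℕ => t (fun i => v (sk1 i))) :=
  LF.comp (f := fun _ a => t a) h (fun i => LF.proj _)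

open Classical in
theorem has_num {P : (Fin (k + 1) → ℕ) → Prop} (h : NP P) :
    HasNF (fun x (_ : (Fin m → ℕ) → Prop) (a : Fin k → ℕ) => P (Fin.cons x.length a)) := by
  have hP : NP (fun v : Fin (k + 2) → ℕ => P (fun i => v (sk1 i))) :=
    LF.comp (f := fun _ a => ind (P a)) h (fun i => LF.proj _)
  refine has_of_leaf
    ⟨fun v => if P (fun i => v (sk1 i)) then 1 else 0, fun _ => 0, fun _ _ => 0⟩
    ⟨fun v => if P (fun i => v (sk1 i)) then 0 else 1, fun _ => 0, fun _ _ => 0⟩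
    ⟨LF.ite hP (LF.const 1) (LF.const 0), LF.const 0, fun _ => LF.const 0⟩
    ⟨LF.ite hP (LF.const 0) (LF.const 1), LF.const 0, fun _ => LF.const 0⟩
    (fun x X s a => ?_) (fun x X s a => ?_)
  · by_cases hp : P (Fin.cons x.length a)
    · simp [Leaf.val, sk1_cons, hp]
    · simp [Leaf.val, sk1_cons, hp]
  · by_cases hp : P (Fin.cons x.length a)
    · simp [Leaf.val, sk1_cons, hp]
    · simp [Leaf.val, sk1_cons, hp]

theorem has_inp {t : (Fin (k + 1) → ℕ) → ℕ} (h : NF t) :
    HasNF (fun x (_ : (Fin m → ℕ) → Prop) (a : Fin k → ℕ) =>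
      x[t (Fin.cons x.length a)]? = some true) := by
  refine has_of_leaf ⟨fun _ => 2, fun v => t (fun i => v (sk1 i)), fun _ _ => 0⟩
    ⟨fun _ => 3, fun v => t (fun i => v (sk1 i)), fun _ _ => 0⟩
    ⟨LF.const 2, nf_sk1 h, fun _ => LF.const 0⟩ ⟨LF.const 3, nf_sk1 h, fun _ => LF.const 0⟩
    (fun x X s a => ?_) (fun x X s a => ?_)
  · simp only [Leaf.val, sk1_cons]
  · simp only [Leaf.val, sk1_cons]

theorem has_ora {t : Fin m → (Fin (k + 1) → ℕ) → ℕ} (h : ∀ i, NF (t i)) :
    HasNF (fun x (X : (Fin m → ℕ) → Prop) (a : Fin k → ℕ) =>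
      X (fun i => t i (Fin.cons x.length a))) := by
  refine has_of_leaf ⟨fun _ => 4, fun _ => 0, fun i v => t i (fun j => v (sk1 j))⟩
    ⟨fun _ => 5, fun _ => 0, fun i v => t i (fun j => v (sk1 j))⟩
    ⟨LF.const 4, LF.const 0, fun i => nf_sk1 (h i)⟩
    ⟨LF.const 5, LF.const 0, fun i => nf_sk1 (h i)⟩
    (fun x X s a => ?_) (fun x X s a => ?_)
  · simp only [Leaf.val, sk1_cons]
  · simp only [Leaf.val, sk1_cons]

theorem has_not {F : Op m k} (h : HasNF F) : HasNF (fun x X a => ¬ F x X a) := by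
  obtain ⟨d0, E0, h⟩ := h
  refine ⟨d0 + 1, E0, fun d hd E hE => ?_⟩
  obtain ⟨d, rfl⟩ : ∃ d', d = d' + 1 := ⟨d - 1, by omega⟩
  obtain ⟨l, hl, e⟩ := h d (by omega) E hE
  refine ⟨pre l (redn E d), pre_ok hl (nf_redn E d), fun x X a => ?_⟩
  rw [nest_iff]
  have h1 : ∀ b < (x.length + 2) ^ E, (nst ((x.length + 2) ^ E) (fun s =>
      (pre l (redn E d)).val x X (Fin.cons x.length (Fin.cons s a))) d (0 * (x.length + 2) ^ E + b) ↔
      F x X a) := by
    intro b hb
    rw [e x X a, nest_iff]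
    refine nst_congr d _ _ (fun r hr => ?_)
    rw [pre_val, redn_cons]
    have e1 : ((0 * (x.length + 2) ^ E + b) * ((x.length + 2) ^ E) ^ d + r) %
        ((x.length + 2) ^ E) ^ d = r := by
      rw [Nat.mul_add_mod', Nat.mod_eq_of_lt hr]
    have e2 : 0 * ((x.length + 2) ^ E) ^ d + r = r := by ring
    rw [e1, e2]
  simp only [nst]
  constructor
  · intro hF b hb
    rw [h1 b hb]
    exact hF
  · intro hF
    have := hF 0 (powpos _ E)
    rw [h1 0 (powpos _ E)] at this
    exact this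

/-- Two levels of quantifiers before a normal form. -/
theorem two_levels {M : ℕ} (hM : 0 < M) {φ : ℕ → Prop} {d : ℕ} {Y : ℕ → Prop}
    (h : ∀ b < M, ∀ b' < M, (nst M φ d ((0 * M + b) * M + b') ↔ Y b)) :
    nst M φ (d + 2) 0 ↔ ∀ b < M, Y b := by
  show (∀ b < M, ¬ ∀ b' < M, ¬ nst M φ d ((0 * M + b) * M + b')) ↔ _
  refine forall_congr' fun b => forall_congr' fun hb => ?_
  constructor
  · intro h1
    by_contra h2
    exact h1 (fun b' hb' h3 => h2 ((h b hb b' hb').1 h3))
  · intro h1 h2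
    exact h2 0 hM ((h b hb 0 hM).2 h1)

theorem code_mod {M b b' d r : ℕ} (hr : r < M ^ d) :
    (((0 * M + b) * M + b') * M ^ d + r) % M ^ d = r := by
  rw [Nat.mul_add_mod', Nat.mod_eq_of_lt hr]

theorem code_div {M b b' d r : ℕ} (hr : r < M ^ d) (hb : b' < M) :
    (((0 * M + b) * M + b') * M ^ d + r) / M ^ (d + 1) = b := by
  have hM : 0 < M := by omega
  have e : ((0 * M + b) * M + b') * M ^ d + r = b * M ^ (d + 1) + (b' * M ^ d + r) := by ring
  have h2 : b' * M ^ d + r < M ^ (d + 1) := by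
    have h3 : (b' + 1) * M ^ d ≤ M * M ^ d := Nat.mul_le_mul_right _ hb
    have h4 : M ^ (d + 1) = M * M ^ d := by ring
    rw [h4]
    nlinarith
  rw [e, mul_comm b, Nat.mul_add_div (Nat.pow_pos hM), Nat.div_eq_of_lt h2, Nat.add_zero]

theorem has_and {F G : Op m k} (h : HasNF F) (h' : HasNF G) :
    HasNF (fun x X a => F x X a ∧ G x X a) := by
  obtain ⟨d0, E0, h⟩ := h
  obtain ⟨d1, E1, h'⟩ := h'
  refine ⟨max d0 d1 + 2, max (max E0 E1) 1, fun d hd E hE => ?_⟩
  obtain ⟨d, rfl⟩ : ∃ d', d = d' + 2 := ⟨d - 2, by omega⟩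
  obtain ⟨l, hl, e⟩ := h d (by omega) E (by omega)
  obtain ⟨l', hl', e'⟩ := h' d (by omega) E (by omega)
  have hM : NF (fun v : Fin (k + 2) → ℕ => (v 0 + 2) ^ E) :=
    LF.powConst ((LF.proj 0).add (LF.const 2)) E
  have hP : NP (fun v : Fin (k + 2) → ℕ => v 1 / ((v 0 + 2) ^ E) ^ (d + 1) = 0) :=
    LFP.eq_zero (LF.div (LF.proj 1) (LF.powConst hM (d + 1)))
  refine ⟨cas (fun v : Fin (k + 2) → ℕ => v 1 / ((v 0 + 2) ^ E) ^ (d + 1) = 0)
    (pre l (redn E d)) (pre l' (redn E d)),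
    cas_ok hP (pre_ok hl (nf_redn E d)) (pre_ok hl' (nf_redn E d)), fun x X a => ?_⟩
  rw [nest_iff, two_levels (powpos _ E) (Y := fun b => if b = 0 then F x X a else G x X a)]
  · have h2 : 2 ≤ (x.length + 2) ^ E := by
      calc 2 ≤ x.length + 2 := by omega
        _ = (x.length + 2) ^ 1 := (pow_one _).symm
        _ ≤ (x.length + 2) ^ E := Nat.pow_le_pow_right (by omega) (by omega)
    constructor
    · rintro ⟨hF, hG⟩ b hb
      by_cases hb0 : b = 0
      · rw [if_pos hb0]; exact hF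
      · rw [if_neg hb0]; exact hG
    · intro hb
      have b0 := hb 0 (by omega)
      have b1 := hb 1 (by omega)
      rw [if_pos rfl] at b0
      rw [if_neg one_ne_zero] at b1
      exact ⟨b0, b1⟩
  · intro b hb b' hb'
    by_cases hb0 : b = 0
    · rw [if_pos hb0, e x X a, nest_iff]
      refine nst_congr d _ _ (fun r hr => ?_)
      have hc : (fun v : Fin (k + 2) → ℕ => v 1 / ((v 0 + 2) ^ E) ^ (d + 1) = 0)
          (Fin.cons x.length (Fin.cons (((0 * (x.length + 2) ^ E + b) * (x.length + 2) ^ E + b') *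
            ((x.length + 2) ^ E) ^ d + r) a)) := by
        show (((0 * (x.length + 2) ^ E + b) * (x.length + 2) ^ E + b') *
            ((x.length + 2) ^ E) ^ d + r) / ((x.length + 2) ^ E) ^ (d + 1) = 0
        rw [code_div hr hb', hb0]
      rw [cas_pos _ _ _ _ hc, pre_val, redn_cons, code_mod hr, Nat.zero_mul, Nat.zero_add]
    · rw [if_neg hb0, e' x X a, nest_iff]
      refine nst_congr d _ _ (fun r hr => ?_)
      have hc : ¬ (fun v : Fin (k + 2) → ℕ => v 1 / ((v 0 + 2) ^ E) ^ (d + 1) = 0)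
          (Fin.cons x.length (Fin.cons (((0 * (x.length + 2) ^ E + b) * (x.length + 2) ^ E + b') *
            ((x.length + 2) ^ E) ^ d + r) a)) := by
        show ¬ (((0 * (x.length + 2) ^ E + b) * (x.length + 2) ^ E + b') *
            ((x.length + 2) ^ E) ^ d + r) / ((x.length + 2) ^ E) ^ (d + 1) = 0
        rw [code_div hr hb']
        exact hb0
      rw [cas_neg _ _ _ _ hc, pre_val, redn_cons, code_mod hr, Nat.zero_mul, Nat.zero_add]

theorem has_all {F : Op m (k + 1)} (e : ℕ) (h : HasNF F) :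
    HasNF (fun x X (a : Fin k → ℕ) => ∀ b < (x.length + 2) ^ e, F x X (Fin.cons b a)) := by
  obtain ⟨d0, E0, h⟩ := h
  refine ⟨d0 + 2, max E0 e, fun d hd E hE => ?_⟩
  obtain ⟨d, rfl⟩ : ∃ d', d = d' + 2 := ⟨d - 2, by omega⟩
  obtain ⟨l, hl, e1⟩ := h d (by omega) E (by omega)
  refine ⟨pre l (redq E d e), pre_ok hl (nf_redq E d e), fun x X a => ?_⟩
  rw [nest_iff, two_levels (powpos _ E) (Y := fun b => F x X (Fin.cons (b % (x.length + 2) ^ e) a))]
  · have h2 : (x.length + 2) ^ e ≤ (x.length + 2) ^ E :=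
      Nat.pow_le_pow_right (by omega) (by omega)
    constructor
    · intro hF b hb
      exact hF _ (Nat.mod_lt _ (powpos _ e))
    · intro hb b hb'
      have := hb b (lt_of_lt_of_le hb' h2)
      rw [Nat.mod_eq_of_lt hb'] at this
      exact this
  · intro b hb b' hb'
    rw [e1 x X _, nest_iff]
    refine nst_congr d _ _ (fun r hr => ?_)
    rw [pre_val, redq_cons, code_mod hr, code_div hr hb', Nat.zero_mul, Nat.zero_add]

/-- MODULE A2. -/
theorem modA2 : ModA2 := by
  intro m k F hF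
  show HasNF F
  induction hF with
  | num h => exact has_num h
  | inp h => exact has_inp h
  | ora h => exact has_ora h
  | not _ ih => exact has_not ih
  | and _ _ ih ih' => exact has_and ih ih'
  | all e _ ih => exact has_all e ih

end Vale.Agent.P313.AC.H602
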