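import Vale.Agent.P313.AC.H602.Stab
import Vale.Agent.P313.AC.H95.SpecNF

/-!
The operator with a numeric test of the last value.
-/

namespace Vale.Agent.P313.AC.H602

open Finset

/-- Address of the output. -/
def aO1 : Fin 14 → ℕ := ![4, 1, 0, 0, 0, 0, 0, 0, 0, 0, 0, 0, 0, 0]

/-- The operator with the output test `Pt`. -/
def opG (D : Dat) (Pt : ℕ → ℕ → Prop) : Op 14 14 := fun x X a =>
  ((a 0 = 4 ∧ a 1 = 1) ∧ ∃ v < (x.length + 2) ^ D.e, Pt x.length v ∧
    X (aA (D.p x.length).L (D.p x.length).tm (D.st x.length) 0 v)) ∨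
  (¬ (a 0 = 4 ∧ a 1 = 1) ∧ opF D x X a)

theorem fo_opG (h1 : ModF1) {D : Dat} (hD : D.Ok) {Pt : ℕ → ℕ → Prop}
    (hP : NP (fun a : Fin 2 → ℕ => Pt (a 0) (a 1))) : FO (opG D Pt) := by
  have ht : TP (fun (_ : List Bool) (a : Fin 14 → ℕ) => a 0 = 4 ∧ a 1 = 1) :=
    TP.and (TP.eq (TF.var 0) (TF.const 4)) (TP.eq (TF.var 1) (TF.const 1))
  have hex : FO (fun x (X : (Fin 14 → ℕ) → Prop) (_ : Fin 14 → ℕ) =>
      ∃ v < (x.length + 2) ^ D.e, Pt x.length v ∧
        X (aA (D.p x.length).L (D.p x.length).tm (D.st x.length) 0 v)) := by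
    refine FO.exT D.e (G := fun x X (_ : Fin 14 → ℕ) v => Pt x.length v ∧
        X (aA (D.p x.length).L (D.p x.length).tm (D.st x.length) 0 v)) ?_
    refine FO.and (FO.tp ?_) ?_
    · exact TP.comp (g := fun a : Fin 2 → ℕ => Pt (a 0) (a 1)) hP
        (τ := ![fun x _ => x.length, fun _ a => a 0])
        (fun i => by fin_cases i; exacts [TF.len, TF.var 0])
    · refine FO.oraT (τ := fun i x (a : Fin 15 → ℕ) =>
        aA (D.p x.length).L (D.p x.length).tm (D.st x.length) 0 (a 0) i) (fun i => ?_)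
      fin_cases i
      · exact TF.const 0
      · exact hD.goodF.tf_L
      · exact hD.goodF.tf_tm
      · exact TF.const 0
      · exact TF.const 0
      · exact TF.const 0
      · exact hD.tf_st
      · exact TF.const 0
      · exact TF.const 0
      · exact TF.const 0
      · exact TF.const 0
      · exact TF.const 0
      · exact TF.const 0
      · exact TF.var 0
  exact FO.or (FO.and (FO.tp ht) hex) (FO.and (FO.not (FO.tp ht)) (h1 D hD))

/-- The operator only looks at the addresses of values, trees and estimates. -/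
theorem opF_congr (D : Dat) (x : List Bool) {X Y : (Fin 14 → ℕ) → Prop}
    (hA : ∀ l t u y v, X (aA l t u y v) ↔ Y (aA l t u y v))
    (hT : ∀ l t i j sg u y K g h s w v, X (aT l t i j sg u y K g h s w v) ↔
      Y (aT l t i j sg u y K g h s w v))
    (hE : ∀ l t i j sg u y v, X (aE l t i j sg u y v) ↔ Y (aE l t i j sg u y v))
    (hS : ∀ l t sg u y s w v, X (aS l t sg u y s w v) ↔ Y (aS l t sg u y s w v))
    (a : Fin 14 → ℕ) : opF D x X a ↔ opF D x Y a := by
  simp only [opF, opA0, opA1, opT0, opT1, opBit, opTs, opE, opS0, opS1, opO, dgp, adp, hA, hT, hE,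
    hS]

/-- Away from the new output the iterates are those of the operator. -/
theorem it_opG (D : Dat) (Pt : ℕ → ℕ → Prop) (x : List Bool) (T : ℕ) :
    ∀ a : Fin 14 → ℕ, ¬ (a 0 = 4 ∧ a 1 = 1) →
      (it (opG D Pt) D.e x T a ↔ it (opF D) D.e x T a) := by
  induction T with
  | zero => intro a _; exact Iff.rfl
  | succ T ih =>
    intro a ha
    show ((∀ i, a i < (x.length + 2) ^ D.e) ∧ opG D Pt x (it (opG D Pt) D.e x T) a) ↔
      ((∀ i, a i < (x.length + 2) ^ D.e) ∧ opF D x (it (opF D) D.e x T) a)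
    have h1 : opG D Pt x (it (opG D Pt) D.e x T) a ↔ opF D x (it (opG D Pt) D.e x T) a := by
      unfold opG
      constructor
      · rintro (H | H)
        · exact absurd H.1 ha
        · exact H.2
      · intro H
        exact Or.inr ⟨ha, H⟩
    rw [h1]
    refine and_congr_right fun _ => opF_congr D x ?_ ?_ ?_ ?_ a
    · intro l t u y v
      exact ih _ (fun h => absurd h.1 (by simp [aA]))
    · intro l t i j sg u y K g h s w v
      exact ih _ (fun h => absurd h.1 (by simp [aT]))
    · intro l t i j sg u y v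
      exact ih _ (fun h => absurd h.1 (by simp [aE]))
    · intro l t sg u y s w v
      exact ih _ (fun h => absurd h.1 (by simp [aS]))

theorem five_lt {D : Dat} (hD : D.Ok) (n : ℕ) : 4 < (n + 2) ^ D.e := by
  have hg := hD.good n
  have h2 := hg.hV
  have h3 := hD.goodF.hV n
  have hN : 0 < (D.p n).N := by rw [hg.hN]; exact Nat.pow_pos (by norm_num)
  have h4 : 0 < (D.p n).Q := by
    rcases Nat.eq_zero_or_pos (D.p n).Q with h0 | h0
    · have h5 := hg.hQ2
      rw [h0] at h5
      have : 0 < 2 * (2 ^ (D.p n).b) ^ (D.p n).tm * (2 ^ (D.p n).g0 * (D.p n).N) := by positivity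
      omega
    · exact h0
  have h5 : 1 ≤ (D.p n).f ^ (2 * D.j0) * (D.p n).U := by
    apply Nat.mul_pos
    · exact Nat.pow_pos (by have := hg.f2; omega)
    · exact Nat.mul_pos hN (by unfold Pr.C; omega)
  omega

/-- What the iteration computes. -/
theorem run_iffG {D : Dat} {x : List Bool} (hD : D.Ok) (hB : Bdd D x) (h7 : ModF7)
    (Pt : ℕ → ℕ → Prop) :
    it (opG D Pt) D.e x (rO D x.length) aO1 ↔
      Pt x.length (vA D x (D.p x.length).L (D.p x.length).tm (D.st x.length) 0) := by
  have hg := hD.good x.length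
  have hf := hD.goodF
  have hinv := h7 D x hD hB (rA D (D.p x.length).L (D.p x.length).tm)
  have hN : 0 < (D.p x.length).N := by rw [hg.hN]; exact Nat.pow_pos (by norm_num)
  have hVb : vA D x (D.p x.length).L (D.p x.length).tm (D.st x.length) 0 <
      (x.length + 2) ^ D.e := by
    have h1 := hB (D.p x.length).L (D.p x.length).tm (D.st x.length) 0 le_rfl hg.htm le_rfl
      (hD.lst _) hN
    have h2 := hg.hV
    have h3 := hf.hV x.length
    omega
  have key : ∀ v < (x.length + 2) ^ D.e,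
      (it (opG D Pt) D.e x (rA D (D.p x.length).L (D.p x.length).tm)
        (aA (D.p x.length).L (D.p x.length).tm (D.st x.length) 0 v) ↔
      v = vA D x (D.p x.length).L (D.p x.length).tm (D.st x.length) 0) := fun v hv => by
    rw [it_opG D Pt x _ _ (fun h => absurd h.1 (by simp [aA]))]
    exact hinv.cA _ _ _ _ v le_rfl hg.htm le_rfl (hD.lst _) hN hv le_rfl
  show ((∀ i, aO1 i < (x.length + 2) ^ D.e) ∧ opG D Pt x (it (opG D Pt) D.e x
    (rA D (D.p x.length).L (D.p x.length).tm)) aO1) ↔ _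
  have ha : ∀ i, aO1 i < (x.length + 2) ^ D.e := by
    intro i
    have h1 := five_lt hD x.length
    have : aO1 i ≤ 4 := by fin_cases i <;> simp [aO1]
    omega
  have hO : aO1 0 = 4 ∧ aO1 1 = 1 := ⟨rfl, rfl⟩
  constructor
  · rintro ⟨_, H⟩
    rcases H with H | H
    · obtain ⟨_, v, hv, hQ, hX⟩ := H
      rw [(key v hv).1 hX] at hQ
      exact hQ
    · exact absurd hO H.1
  · intro H
    exact ⟨ha, Or.inl ⟨hO, _, hVb, H, (key _ hVb).2 rfl⟩⟩

/-- The language given by a numeric test of the last value is in uniform `AC^1`. -/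
theorem runG {D : Dat} (hD : D.Ok) (hB : ∀ x, Bdd D x) (h1 : ModF1) (h7 : ModF7) (hA : ModA)
    {Pt : ℕ → ℕ → Prop} (hP : NP (fun a : Fin 2 → ℕ => Pt (a 0) (a 1))) :
    UniformAC1 {x : List Bool | Pt x.length
      (vA D x (D.p x.length).L (D.p x.length).tm (D.st x.length) 0)} := by
  have ha0 : ∀ i : Fin 14, NF (fun _ : Fin 1 → ℕ => aO1 i) := fun i => LF.const _
  have h2 := hA 14 (opG D Pt) D.e (rO D) (fun _ => aO1) (fo_opG h1 hD hP) (nf_rO hD) ha0
  have h3 : {x : List Bool | it (opG D Pt) D.e x (rO D x.length) aO1} =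
      {x : List Bool | Pt x.length
        (vA D x (D.p x.length).L (D.p x.length).tm (D.st x.length) 0)} := by
    ext x
    exact run_iffG hD (hB x) h7 Pt
  have h4 := h3 ▸ h2
  exact UAC.mono h4 (K := (15 * D.κ + 4 + 2 * D.j0) * D.e + 2) (rO_le hD)

end Vale.Agent.P313.AC.H602
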