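import Vale.Agent.P313.AC.G.Spec
import Vale.Agent.P313.AC.H602.Out

/-!
The gap form: the operator with the output test is first-order, its iterates agree with those of
the operator away from the output.
-/

namespace Vale.Agent.P313.AC.H602

open Finset

theorem modG1 (h1 : ModF1) : ModG1 := by
  intro α β D hD
  have ht : TP (fun (_ : List Bool) (a : Fin 14 → ℕ) => a 0 = 4) :=
    TP.eq (TF.var 0) (TF.const 4)
  have hex : FO (opOg α β D) := by
    refine FO.exT D.e (G := fun x X (_ : Fin 14 → ℕ) v => α * (D.p x.length).Q ≤ β * v ∧
        X (aA (D.p x.length).L (D.p x.length).tm (D.st x.length) 0 v)) ?_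
    refine FO.and (FO.tp ?_) ?_
    · exact TP.le (TF.mul (TF.const α) hD.goodF.tf_Q) (TF.mul (TF.const β) (TF.var 0))
    · refine FO.oraT (τ := fun i x (a : Fin 15 → ℕ) =>
        aA (D.p x.length).L (D.p x.length).tm (D.st x.length) 0 (a 0) i) (fun i => ?_)
      fin_cases i
      · exact TF.const 0
      · exact hD.goodF.tf_L
      · exact hD.goodF.tf_tm
      · exact TF.const 0
      · exact TF.const 0
      · exact TF.const 0
      · exact hD.tf_st
      · exact TF.const 0
      · exact TF.const 0
      · exact TF.const 0
      · exact TF.const 0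
      · exact TF.const 0
      · exact TF.const 0
      · exact TF.var 0
  exact FO.or (FO.and (FO.tp ht) hex) (FO.and (FO.not (FO.tp ht)) (h1 D hD))

theorem modG2 : ModG2 := by
  intro α β D x T
  induction T with
  | zero => intro a _; exact Iff.rfl
  | succ T ih =>
    intro a ha
    show ((∀ i, a i < (x.length + 2) ^ D.e) ∧
      AC.opG α β D x (it (AC.opG α β D) D.e x T) a) ↔
      ((∀ i, a i < (x.length + 2) ^ D.e) ∧ opF D x (it (opF D) D.e x T) a)
    have h1 : AC.opG α β D x (it (AC.opG α β D) D.e x T) a ↔
        opF D x (it (AC.opG α β D) D.e x T) a := by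
      unfold AC.opG
      constructor
      · rintro (H | H)
        · exact absurd H.1 ha
        · exact H.2
      · intro H
        exact Or.inr ⟨ha, H⟩
    rw [h1]
    refine and_congr_right fun _ => opF_congr D x ?_ ?_ ?_ ?_ a
    · intro l t u y v
      exact ih _ (by simp [aA])
    · intro l t i j sg u y K g h s w v
      exact ih _ (by simp [aT])
    · intro l t i j sg u y v
      exact ih _ (by simp [aE])
    · intro l t sg u y s w v
      exact ih _ (by simp [aS])

end Vale.Agent.P313.AC.H602
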