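import Vale.Agent.P313.AC.SpecA
import Vale.Agent.P313.H296.E4

/-!
Module A4: the direct connection language of a numeric family of circuits is decided in
logarithmic space and polynomial time.
-/

namespace Vale.Agent.P313.AC.H602

open Finset

/-- The number of symbols `true` from position `s` on. -/
noncomputable def ld (x : List Bool) (s : ℕ) : ℕ :=
  leastBelow (fun j => ¬ x[s + j]? = some true) (x.length + 1)

theorem ld_spec (x : List Bool) (s : ℕ) :
    (∀ j < ld x s, x[s + j]? = some true) ∧ ¬ x[s + ld x s]? = some true := by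
  obtain ⟨h1, h2, h3⟩ := leastBelow_spec (fun j => ¬ x[s + j]? = some true) (x.length + 1)
  have h4 : ld x s < x.length + 1 := by
    by_contra h
    have h5 : ld x s = x.length + 1 := by
      have : ld x s ≤ x.length + 1 := h1
      omega
    have h6 := h2 x.length (by
      show x.length < ld x s
      omega)
    simp at h6
  refine ⟨fun j hj => ?_, h3 h4⟩
  have := h2 j hj
  simpa using this

theorem ld_eq {x : List Bool} {s m : ℕ} (h1 : ∀ j < m, x[s + j]? = some true)
    (h2 : ¬ x[s + m]? = some true) : ld x s = m := by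
  obtain ⟨h3, h4⟩ := ld_spec x s
  rcases lt_trichotomy (ld x s) m with h | h | h
  · exact absurd (h1 _ h) h4
  · exact h
  · exact absurd (h3 _ h) h2

theorem lf_sym {k : ℕ} {f : Fn k} (h : LF f) : LFP (fun x a => x[f x a]? = some true) := by
  have h1 := LF.sym (k := k) (f := fun x a => f x a + 1) (fun s => match s with
    | InSym.bit true => true
    | _ => false) h.succ
  refine LF.congr h1 (fun x a => ?_)
  unfold inSym
  rw [if_neg (by omega), Nat.add_sub_cancel]
  cases hx : x[f x a]? with
  | none => simp [ind, hx]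
  | some b => cases b <;> simp [ind, hx]

theorem lf_ld {k : ℕ} {f : Fn k} (h : LF f) : LF (fun x a => ld x (f x a)) := by
  unfold ld
  refine LF.least (P := fun x b => ¬ x[f x (Fin.tail b) + b 0]? = some true) (n := fun x _ => x.length + 1)
    (LFP.not (lf_sym (h.weak.add (LF.proj 0)))) LF.len.succ |>.congr (fun x a => ?_)
  simp only [Fin.tail_cons, Fin.cons_zero]

theorem word_cons (k : ℕ) (l : List ℕ) :
    word (k :: l) = List.replicate k true ++ false :: word l := by
  simp [word]

theorem word_get (k : ℕ) (l : List ℕ) (i : ℕ) : (word (k :: l))[i]? =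
    if i < k then some true else if i = k then some false else (word l)[i - k - 1]? := by
  rw [word_cons, List.getElem?_append]
  simp only [List.length_replicate, List.getElem?_replicate]
  by_cases h1 : i < k
  · simp [h1]
  · rw [if_neg h1, if_neg h1]
    by_cases h2 : i = k
    · simp [h2]
    · rw [if_neg h2]
      obtain ⟨m, hm⟩ : ∃ m, i - k = m + 1 := ⟨i - k - 1, by omega⟩
      rw [hm]
      simp

theorem ld_word (k : ℕ) (l : List ℕ) : ld (word (k :: l)) 0 = k := by
  refine ld_eq (fun j hj => ?_) ?_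
  · rw [word_get]; simp [hj]
  · rw [word_get]; simp

theorem ld_word_succ (k : ℕ) (l : List ℕ) (s : ℕ) :
    ld (word (k :: l)) (k + 1 + s) = ld (word l) s := by
  obtain ⟨h1, h2⟩ := ld_spec (word l) s
  have e : ∀ j, (word (k :: l))[k + 1 + s + j]? = (word l)[s + j]? := by
    intro j
    rw [word_get, if_neg (by omega), if_neg (by omega)]
    congr 1
    omega
  refine ld_eq (fun j hj => ?_) ?_
  · rw [e]; exact h1 j hj
  · rw [e]; exact h2

theorem length_word_cons (k : ℕ) (l : List ℕ) : (word (k :: l)).length = k + 1 + (word l).length := by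
  rw [word_cons]; simp; omega

theorem word_nil : word [] = [] := rfl

/-- A word whose blocks fill it. -/
theorem eq_word_cons {x : List Bool} (h : ld x 0 < x.length) :
    x = List.replicate (ld x 0) true ++ false :: x.drop (ld x 0 + 1) := by
  obtain ⟨h1, h2⟩ := ld_spec x 0
  simp only [Nat.zero_add] at h1 h2
  apply List.ext_getElem?
  intro i
  rw [List.getElem?_append]
  simp only [List.length_replicate, List.getElem?_replicate]
  by_cases h3 : i < ld x 0
  · simp [h3, h1 i h3]
  · rw [if_neg h3]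
    by_cases h4 : i = ld x 0
    · subst h4
      simp only [Nat.sub_self, List.getElem?_cons_zero]
      rw [List.getElem?_eq_getElem h] at h2 ⊢
      cases hb : x[ld x 0]
      · rfl
      · rw [hb] at h2; exact absurd rfl h2
    · obtain ⟨m, hm⟩ : ∃ m, i - ld x 0 = m + 1 := ⟨i - ld x 0 - 1, by omega⟩
      rw [hm]
      simp only [List.getElem?_cons_succ, List.getElem?_drop]
      congr 1
      omega

theorem ld_drop (x : List Bool) (m s : ℕ) : ld (x.drop m) s = ld x (m + s) := by
  obtain ⟨h1, h2⟩ := ld_spec (x.drop m) s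
  have e : ∀ j, x[m + s + j]? = (x.drop m)[s + j]? := by
    intro j
    rw [List.getElem?_drop]
    congr 1
    omega
  refine (ld_eq (fun j hj => ?_) ?_).symm
  · rw [e]; exact h1 j hj
  · rw [e]; exact h2

/-- Reading four blocks. -/
theorem eq_word4 (x : List Bool) (n q g h : ℕ) : x = word [n, q, g, h] ↔
    ld x 0 = n ∧ ld x (n + 1) = q ∧ ld x (n + q + 2) = g ∧ ld x (n + q + g + 3) = h ∧
      x.length = n + q + g + h + 4 := by
  constructor
  · intro hx
    have e1 : ld (word [n, q, g, h]) 0 = n := ld_word _ _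
    have e2 : ld (word [n, q, g, h]) (n + 1 + 0) = q := by
      rw [ld_word_succ, ld_word]
    have e3 : ld (word [n, q, g, h]) (n + 1 + (q + 1 + 0)) = g := by
      rw [ld_word_succ, ld_word_succ, ld_word]
    have e4 : ld (word [n, q, g, h]) (n + 1 + (q + 1 + (g + 1 + 0))) = h := by
      rw [ld_word_succ, ld_word_succ, ld_word_succ, ld_word]
    rw [hx]
    have f3 : n + q + 2 = n + 1 + (q + 1 + 0) := by omega
    have f4 : n + q + g + 3 = n + 1 + (q + 1 + (g + 1 + 0)) := by omega
    refine ⟨e1, e2, ?_, ?_, ?_⟩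
    · rw [f3]; exact e3
    · rw [f4]; exact e4
    · simp only [length_word_cons, word_nil, List.length_nil]; omega
  · rintro ⟨h1, h2, h3, h4, h5⟩
    have a1 : ld x 0 < x.length := by omega
    have b1 := eq_word_cons a1
    rw [h1] at b1
    have c1 : ld (x.drop (n + 1)) 0 = q := by rw [ld_drop, ← h2, Nat.add_zero]
    have a2 : ld (x.drop (n + 1)) 0 < (x.drop (n + 1)).length := by
      rw [c1, List.length_drop]; omega
    have b2 := eq_word_cons a2
    rw [c1, List.drop_drop] at b2
    have c2 : ld (x.drop (n + 1 + (q + 1))) 0 = g := by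
      rw [ld_drop, ← h3]; congr 1; omega
    have a3 : ld (x.drop (n + 1 + (q + 1))) 0 < (x.drop (n + 1 + (q + 1))).length := by
      rw [c2, List.length_drop]; omega
    have b3 := eq_word_cons a3
    rw [c2, List.drop_drop] at b3
    have c3 : ld (x.drop (n + 1 + (q + 1) + (g + 1))) 0 = h := by
      rw [ld_drop, ← h4]; congr 1; omega
    have a4 : ld (x.drop (n + 1 + (q + 1) + (g + 1))) 0 <
        (x.drop (n + 1 + (q + 1) + (g + 1))).length := by
      rw [c3, List.length_drop]; omega
    have b4 := eq_word_cons a4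
    rw [c3, List.drop_drop] at b4
    have c4 : x.drop (n + 1 + (q + 1) + (g + 1) + (h + 1)) = [] := by
      apply List.drop_eq_nil_of_le; omega
    rw [c4] at b4
    rw [b1, b2, b3, b4]
    simp [word_cons, word_nil]

/-- The four numbers read from a word. -/
noncomputable def rd (x : List Bool) (i : ℕ) : ℕ :=
  if i = 0 then ld x 0
  else if i = 1 then ld x (ld x 0 + 1)
  else if i = 2 then ld x (ld x 0 + ld x (ld x 0 + 1) + 2)
  else ld x (ld x 0 + ld x (ld x 0 + 1) + ld x (ld x 0 + ld x (ld x 0 + 1) + 2) + 3)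

theorem lf_rd (k : ℕ) (i : ℕ) : LF (fun x _ => rd x i : Fn k) := by
  have e0 : LF (fun x _ => ld x 0 : Fn k) := lf_ld (LF.const 0)
  have e1 : LF (fun x _ => ld x (ld x 0 + 1) : Fn k) := lf_ld e0.succ
  have e2 : LF (fun x _ => ld x (ld x 0 + ld x (ld x 0 + 1) + 2) : Fn k) :=
    lf_ld ((e0.add e1).add (LF.const 2))
  have e3 : LF (fun x _ => ld x (ld x 0 + ld x (ld x 0 + 1) +
      ld x (ld x 0 + ld x (ld x 0 + 1) + 2) + 3) : Fn k) :=
    lf_ld (((e0.add e1).add e2).add (LF.const 3))
  unfold rd
  by_cases h0 : i = 0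
  · simpa [h0] using e0
  · by_cases h1 : i = 1
    · simpa [h1] using e1
    · by_cases h2 : i = 2
      · simpa [h2] using e2
      · simpa [h0, h1, h2] using e3

/-- MODULE A4. -/
theorem conn (C : ℕ → Circuit)
    (hq : NP (fun a : Fin 4 → ℕ => (C (a 0)).query (a 1) (a 2) (a 3))) :
    DTISP (fun n => n + 2) (fun n => Nat.log 2 (n + 2)) (connLang C) := by
  -- the language as a predicate of the four numbers
  have hmem : ∀ x : List Bool, x ∈ connLang C ↔
      (C (rd x 0)).query (rd x 1) (rd x 2) (rd x 3) ∧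
        x.length = rd x 0 + rd x 1 + rd x 2 + rd x 3 + 4 := by
    intro x
    constructor
    · rintro ⟨n, q, g, h, hx, hQ⟩
      obtain ⟨h1, h2, h3, h4, h5⟩ := (eq_word4 x n q g h).1 hx
      have r0 : rd x 0 = n := by simp [rd, h1]
      have r1 : rd x 1 = q := by simp [rd, h1, h2]
      have r2 : rd x 2 = g := by simp [rd, h1, h2, h3]
      have r3 : rd x 3 = h := by simp [rd, h1, h2, h3, h4]
      rw [r0, r1, r2, r3]
      exact ⟨hQ, h5⟩
    · rintro ⟨hQ, h5⟩
      refine ⟨rd x 0, rd x 1, rd x 2, rd x 3, ?_, hQ⟩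
      refine (eq_word4 x _ _ _ _).2 ⟨rfl, ?_, ?_, ?_, h5⟩
      · simp [rd]
      · simp [rd]
      · simp [rd]
  have hF : LFP (fun x (_ : Fin 1 → ℕ) => x ∈ connLang C) := by
    have h1 : LFP (fun x (_ : Fin 1 → ℕ) => (C (rd x 0)).query (rd x 1) (rd x 2) (rd x 3)) := by
      have h2 := LF.comp (k := 1) (m := 4) (f := fun _ a => ind ((C (a 0)).query (a 1) (a 2) (a 3)))
        (g := fun i => fun x _ => rd x i.val) hq (fun i => lf_rd 1 i.val)
      exact h2
    have h2 : LFP (fun x (_ : Fin 1 → ℕ) =>
        x.length = rd x 0 + rd x 1 + rd x 2 + rd x 3 + 4) :=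
      LFP.eq LF.len (((((lf_rd 1 0).add (lf_rd 1 1)).add (lf_rd 1 2)).add (lf_rd 1 3)).add
        (LF.const 4))
    exact (h1.and h2).congr (fun x _ => (hmem x).symm)
  obtain ⟨D, e, hD⟩ := TS.pad_decides (F := fun x _ => ind (x ∈ connLang C)) (g := fun _ _ => 1)
    hF (LF.const 1) (A := connLang C) (S := fun n => Nat.log 2 (n + 2)) (c := 1) (fun x => by
      refine ⟨0, fun m hm => absurd hm (Nat.not_lt_zero m), by norm_num, by
        simp, ?_⟩
      by_cases hx : x ∈ connLang C
      · simp [ind, hx]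
      · simp [ind, hx])
  refine ⟨D, 2 * e, Beta.decides_mono hD (fun n => ?_) (fun n => ?_)⟩
  · have h1 : (2 : ℕ) ^ (e * Nat.log 2 (n + 2) + e) ≤ (n + 2) ^ (2 * e) := by
      calc 2 ^ (e * Nat.log 2 (n + 2) + e) = (2 ^ Nat.log 2 (n + 2)) ^ e * 2 ^ e := by
            rw [pow_add, ← pow_mul, mul_comm e]
        _ ≤ (n + 2) ^ e * (n + 2) ^ e := Nat.mul_le_mul
            (Nat.pow_le_pow_left (Nat.pow_log_le_self 2 (by omega)) e)
            (Nat.pow_le_pow_left (by omega) e)
        _ = (n + 2) ^ (2 * e) := by rw [← pow_add]; congr 1; omega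
    exact_mod_cast h1
  · push_cast
    have h1 : (0 : ℝ) ≤ (Nat.log 2 (n + 2) : ℝ) := Nat.cast_nonneg _
    have h2 : (0 : ℝ) ≤ (e : ℝ) := Nat.cast_nonneg _
    nlinarith [mul_nonneg h2 h1]

end Vale.Agent.P313.AC.H602
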