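import Vale.Agent.P313.AC.FDef

/-!
Circuits: values are stable above the depth; change of the depth bound; the final run of the
operator.
-/

namespace Vale.Agent.P313.AC.H602

open Finset

theorem val_stable_aux (C : Circuit) (x : List Bool) (lev : ℕ → ℕ)
    (h : ∀ g < C.size, ∀ h < C.size, C.wire g h → lev h < lev g) :
    ∀ (m g : ℕ), g < C.size → lev g ≤ m → ∀ d > lev g, ∀ d' > lev g,
      (C.val x d g ↔ C.val x d' g) := by
  intro m
  induction m with
  | zero =>
    intro g hg hm d hd d' hd'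
    obtain ⟨d, rfl⟩ : ∃ e, d = e + 1 := ⟨d - 1, by omega⟩
    obtain ⟨d', rfl⟩ : ∃ e, d' = e + 1 := ⟨d' - 1, by omega⟩
    have hw : ∀ h' < C.size, ¬ C.wire g h' := fun h' hh hw => by
      have := h g hg h' hh hw
      omega
    simp only [Circuit.val]
    cases hgate : C.gate g with
    | input i => exact Iff.rfl
    | and =>
      exact ⟨fun _ h' hh hc => absurd hc (hw h' hh), fun _ h' hh hc => absurd hc (hw h' hh)⟩
    | or =>
      exact ⟨fun ⟨h', hh, hc, _⟩ => absurd hc (hw h' hh),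
        fun ⟨h', hh, hc, _⟩ => absurd hc (hw h' hh)⟩
    | nor =>
      exact ⟨fun _ h' hh hc => absurd hc (hw h' hh), fun _ h' hh hc => absurd hc (hw h' hh)⟩
  | succ m ih =>
    intro g hg hm d hd d' hd'
    obtain ⟨d, rfl⟩ : ∃ e, d = e + 1 := ⟨d - 1, by omega⟩
    obtain ⟨d', rfl⟩ : ∃ e, d' = e + 1 := ⟨d' - 1, by omega⟩
    have key : ∀ h' < C.size, C.wire g h' → (C.val x d h' ↔ C.val x d' h') := by
      intro h' hh hw
      have h1 := h g hg h' hh hw
      exact ih h' hh (by omega) d (by omega) d' (by omega)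
    simp only [Circuit.val]
    cases hgate : C.gate g with
    | input i => exact Iff.rfl
    | and =>
      exact ⟨fun H h' hh hc => (key h' hh hc).1 (H h' hh hc),
        fun H h' hh hc => (key h' hh hc).2 (H h' hh hc)⟩
    | or =>
      exact ⟨fun ⟨h', hh, hc, H⟩ => ⟨h', hh, hc, (key h' hh hc).1 H⟩,
        fun ⟨h', hh, hc, H⟩ => ⟨h', hh, hc, (key h' hh hc).2 H⟩⟩
    | nor =>
      exact ⟨fun H h' hh hc hv => H h' hh hc ((key h' hh hc).2 hv),
        fun H h' hh hc hv => H h' hh hc ((key h' hh hc).1 hv)⟩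

/-- Values are stable above the depth. -/
theorem val_stable {C : Circuit} {d : ℕ} (h : C.DepthLT d) (x : List Bool) {g : ℕ}
    (hg : g < C.size) {d1 d2 : ℕ} (h1 : d ≤ d1) (h2 : d ≤ d2) :
    C.val x d1 g ↔ C.val x d2 g := by
  obtain ⟨lev, hl, hw⟩ := h
  have := hl g hg
  exact val_stable_aux C x lev hw (lev g) g hg le_rfl d1 (by omega) d2 (by omega)

theorem DepthLT.mono {C : Circuit} {d d' : ℕ} (h : C.DepthLT d) (hd : d ≤ d') : C.DepthLT d' := by
  obtain ⟨lev, hl, hw⟩ := h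
  exact ⟨lev, fun g hg => (hl g hg).trans_le hd, hw⟩

/-- Change of the depth. -/
theorem UAC.mono {T T' : ℕ → ℕ} {A : Set (List Bool)} (h : UAC T A) {K : ℕ}
    (hT : ∀ n, T n ≤ K * T' n + K) : UAC T' A := by
  obtain ⟨C, c, h1, h2, h3⟩ := h
  have hd : ∀ n, c * T n + c ≤ (c * (K + 1)) * T' n + c * (K + 1) := by
    intro n
    calc c * T n + c ≤ c * (K * T' n + K) + c := by
          have := Nat.mul_le_mul_left c (hT n); omega
      _ ≤ (c * (K + 1)) * T' n + c * (K + 1) := by nlinarith [Nat.zero_le (c * T' n)]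
  refine ⟨C, c * (K + 1), fun n => ?_, h2, fun x => ?_⟩
  · obtain ⟨a1, a2, a3, a4⟩ := h1 n
    refine ⟨a1.trans (Nat.pow_le_pow_right (by omega) ?_), a2, DepthLT.mono a3 (hd n), a4⟩
    nlinarith [Nat.zero_le (c * K)]
  · obtain ⟨a1, a2, a3, a4⟩ := h1 x.length
    rw [h3 x]
    exact val_stable a3 x a2 le_rfl (hd x.length)

/-- Time of the output. -/
def rO (D : Dat) (n : ℕ) : ℕ := rA D (D.p n).L (D.p n).tm + 1

theorem nf_rO {D : Dat} (hD : D.Ok) : NF (fun a : Fin 1 → ℕ => rO D (a 0)) := by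
  have h1 := hD.goodF.nL
  have h2 := hD.goodF.ntm
  unfold rO rA
  exact ((((LF.const _).mul h1).add ((LF.const _).mul h2)).succ).succ

theorem rO_le {D : Dat} (hD : D.Ok) (n : ℕ) :
    rO D n ≤ ((15 * D.κ + 4 + 2 * D.j0) * D.e + 2) * Nat.log 2 (n + 2) +
      ((15 * D.κ + 4 + 2 * D.j0) * D.e + 2) := by
  have h := hD.goodF.hL n
  unfold lam at h
  unfold rO rA
  have h1 : (15 * D.κ + 4 + 2 * D.j0) * (D.p n).L + 4 * D.κ * (D.p n).tm ≤
      (15 * D.κ + 4 + 2 * D.j0) * ((D.p n).L + (D.p n).tm) := by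
    rw [Nat.mul_add]
    have : 4 * D.κ * (D.p n).tm ≤ (15 * D.κ + 4 + 2 * D.j0) * (D.p n).tm :=
      Nat.mul_le_mul_right _ (by omega)
    omega
  have h2 : (15 * D.κ + 4 + 2 * D.j0) * ((D.p n).L + (D.p n).tm) ≤
      (15 * D.κ + 4 + 2 * D.j0) * (D.e * Nat.log 2 (n + 2)) := Nat.mul_le_mul_left _ h
  have h3 : (15 * D.κ + 4 + 2 * D.j0) * (D.e * Nat.log 2 (n + 2)) =
      ((15 * D.κ + 4 + 2 * D.j0) * D.e) * Nat.log 2 (n + 2) := by ring
  have h4 : ((15 * D.κ + 4 + 2 * D.j0) * D.e + 2) * Nat.log 2 (n + 2) =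
      ((15 * D.κ + 4 + 2 * D.j0) * D.e) * Nat.log 2 (n + 2) + 2 * Nat.log 2 (n + 2) := by ring
  rw [h3] at h2
  rw [h4]
  omega

/-- THE RUN: what the iteration of the operator computes. -/
theorem run_iff {D : Dat} {x : List Bool} (hD : D.Ok) (hB : Bdd D x) (h7 : ModF7) :
    it (opF D) D.e x (rO D x.length) aO ↔
      (D.p x.length).Q ≤ 2 * vA D x (D.p x.length).L (D.p x.length).tm (D.st x.length) 0 := by
  have hg := hD.good x.length
  have hf := hD.goodF
  have hinv := h7 D x hD hB (rA D (D.p x.length).L (D.p x.length).tm)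
  have hN : 0 < (D.p x.length).N := by rw [hg.hN]; exact Nat.pow_pos (by norm_num)
  have hVb : vA D x (D.p x.length).L (D.p x.length).tm (D.st x.length) 0 <
      (x.length + 2) ^ D.e := by
    have h1 := hB (D.p x.length).L (D.p x.length).tm (D.st x.length) 0 le_rfl hg.htm le_rfl
      (hD.lst _) hN
    have h2 := hg.hV
    have h3 := hf.hV x.length
    omega
  have key : ∀ v < (x.length + 2) ^ D.e,
      (it (opF D) D.e x (rA D (D.p x.length).L (D.p x.length).tm)
        (aA (D.p x.length).L (D.p x.length).tm (D.st x.length) 0 v) ↔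
      v = vA D x (D.p x.length).L (D.p x.length).tm (D.st x.length) 0) := fun v hv =>
    hinv.cA _ _ _ _ v le_rfl hg.htm le_rfl (hD.lst _) hN hv le_rfl
  have he : 4 < (x.length + 2) ^ D.e := by
    have h2 := hg.hV
    have h3 := hf.hV x.length
    have h4 : 0 < (D.p x.length).Q := by
      rcases Nat.eq_zero_or_pos (D.p x.length).Q with h0 | h0
      · have h5 := hg.hQ2
        rw [h0] at h5
        have : 0 < 2 * (2 ^ (D.p x.length).b) ^ (D.p x.length).tm *
          (2 ^ (D.p x.length).g0 * (D.p x.length).N) := by positivity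
        omega
      · exact h0
    have h5 : 1 ≤ (D.p x.length).f ^ (2 * D.j0) * (D.p x.length).U := by
      apply Nat.mul_pos
      · exact Nat.pow_pos (by have := hg.f2; omega)
      · exact Nat.mul_pos hN (by unfold Pr.C; omega)
    omega
  show ((∀ i, aO i < (x.length + 2) ^ D.e) ∧ opF D x (it (opF D) D.e x
    (rA D (D.p x.length).L (D.p x.length).tm)) aO) ↔ _
  have ha : ∀ i, aO i < (x.length + 2) ^ D.e := by
    intro i
    have : aO i ≤ 4 := by fin_cases i <;> simp [aO]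
    omega
  have h0 : aO 0 = 4 := rfl
  constructor
  · rintro ⟨_, H⟩
    unfold opF at H
    rw [h0] at H
    rcases H with H | H | H | H | H | H | H | H
    · exact absurd H.1 (by norm_num)
    · exact absurd H.1 (by norm_num)
    · exact absurd H.1 (by norm_num)
    · exact absurd H.1 (by norm_num)
    · exact absurd H.1 (by norm_num)
    · exact absurd H.1 (by norm_num)
    · exact absurd H.1 (by norm_num)
    · obtain ⟨_, v, hv, hQ, hX⟩ := H
      rw [(key v hv).1 hX] at hQ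
      exact hQ
  · intro H
    refine ⟨ha, ?_⟩
    unfold opF
    rw [h0]
    refine Or.inr (Or.inr (Or.inr (Or.inr (Or.inr (Or.inr (Or.inr ⟨rfl, ?_⟩))))))
    exact ⟨_, hVb, H, (key _ hVb).2 rfl⟩

/-- The language computed by the iteration is in uniform `AC^1`. -/
theorem run {D : Dat} (hD : D.Ok) (hB : ∀ x, Bdd D x) (h1 : ModF1) (h7 : ModF7) (hA : ModA)
    {A : Set (List Bool)} (h : ∀ x : List Bool, x ∈ A ↔
      (D.p x.length).Q ≤ 2 * vA D x (D.p x.length).L (D.p x.length).tm (D.st x.length) 0) :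
    UniformAC1 A := by
  have ha0 : ∀ i : Fin 14, NF (fun _ : Fin 1 → ℕ => aO i) := fun i => LF.const _
  have h2 := hA 14 (opF D) D.e (rO D) (fun _ => aO) (h1 D hD) (nf_rO hD) ha0
  have h3 : {x : List Bool | it (opF D) D.e x (rO D x.length) aO} = A := by
    ext x
    rw [Set.mem_ofPred_eq, run_iff hD (hB x) h7, h x]
  have h4 : UAC (rO D) A := h3 ▸ h2
  exact UAC.mono h4 (K := (15 * D.κ + 4 + 2 * D.j0) * D.e + 2) (rO_le hD)

end Vale.Agent.P313.AC.H602
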